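import Vale.Agent.P050.H687.Spec

/-!
# P050: a part which is thin over `K` has mass one (row THIN of H687)
-/

set_option linter.unusedSectionVars false

namespace Vale.Agent.P050.H346

open Finset Vale.Agent.P050.Lev Vale.Agent.P050.Tmpl Vale.Agent.P050.H177 Vale.Agent.P050.H687

variable {V U : Type} [Fintype V] [DecidableEq V] [Fintype U]

lemma pm_update (s : V → Bool) (m : Bool → U → ℝ) (x : V → U) (w : V) (u : U) :
    pm s m (Function.update x w u) * m (s w) (x w) = pm s m x * m (s w) u := by
  unfold pm
  rw [← Finset.mul_prod_erase univ (fun v => m (s v) (Function.update x w u v)) (mem_univ w),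
    ← Finset.mul_prod_erase univ (fun v => m (s v) (x v)) (mem_univ w)]
  have h : ∏ v ∈ univ.erase w, m (s v) (Function.update x w u v) =
      ∏ v ∈ univ.erase w, m (s v) (x v) :=
    Finset.prod_congr rfl fun v hv => by
      rw [Function.update_of_ne (Finset.ne_of_mem_erase hv)]
  rw [h]
  simp only [Function.update_self]
  ring

/-- the exchange of the value at `w` -/
def swp (w : V) : ((V → U) × U) ≃ ((V → U) × U) where
  toFun p := (Function.update p.1 w p.2, p.1 w)
  invFun p := (Function.update p.1 w p.2, p.1 w)
  left_inv p := by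
    refine Prod.ext ?_ ?_
    · simp
    · simp
  right_inv p := by
    refine Prod.ext ?_ ?_
    · simp
    · simp

/-- resampling the coordinate `w` -/
lemma resample (s : V → Bool) (m : Bool → U → ℝ) (w : V) (h1 : ∑ u, m (s w) u = 1)
    (F : (V → U) → ℝ) :
    ∑ x, pm s m x * F x = ∑ x, pm s m x * ∑ u, m (s w) u * F (Function.update x w u) := by
  have hL : ∑ x, pm s m x * F x = ∑ p : (V → U) × U, pm s m p.1 * F p.1 * m (s w) p.2 := by
    rw [Fintype.sum_prod_type]
    refine Finset.sum_congr rfl fun x _ => ?_
    dsimp only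
    rw [← Finset.mul_sum, h1, mul_one]
  have hR : ∑ x, pm s m x * ∑ u, m (s w) u * F (Function.update x w u) =
      ∑ p : (V → U) × U, pm s m (swp w p).1 * F (swp w p).1 * m (s w) (swp w p).2 := by
    rw [Fintype.sum_prod_type]
    refine Finset.sum_congr rfl fun x _ => ?_
    rw [Finset.mul_sum]
    refine Finset.sum_congr rfl fun u _ => ?_
    have h := pm_update s m x w u
    change pm s m x * (m (s w) u * F (Function.update x w u)) =
      pm s m (Function.update x w u) * F (Function.update x w u) * m (s w) (x w)
    rw [← mul_assoc, ← h]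
    ring
  rw [hL, hR]
  exact (Equiv.sum_comp (swp w)
    (fun p : (V → U) × U => pm s m p.1 * F p.1 * m (s w) p.2)).symm

lemma sum_pm (s : V → Bool) (m : Bool → U → ℝ) (h : ∀ b, ∑ x, m b x = 1) :
    ∑ x : V → U, pm s m x = 1 := by
  unfold pm
  have h1 : ∏ v : V, ∑ u, m (s v) u = 1 := Finset.prod_eq_one fun v _ => h (s v)
  rw [← h1, Finset.prod_univ_sum, Fintype.piFinset_univ]

lemma thin_disj {H : SimpleGraph V} {K B : Finset V} (h : Thin H K B) : ∀ v ∈ B, v ∉ K := by
  induction h with
  | empty => simp
  | insert w _ hw _ _ ih =>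
    intro v hv
    rcases Finset.mem_insert.1 hv with rfl | hv
    · exact hw
    · exact ih v hv

/-- the values on `K` and on the rest -/
def yy (K : Finset V) (r x : V → U) (v : V) : U := if v ∈ K then r v else x v

open Classical in
/-- the new factors -/
noncomputable def ex (H : SimpleGraph V) (s : V → Bool) (W : U → U → ℝ) (S : Finset V) (w : V)
    (y : V → U) (a : U) (u v : V) : ℝ :=
  if u = w then (if v ∈ S then ed H s W w v a (y v) else 1)
  else (if v = w ∧ u ∈ S then ed H s W u w (y u) a else 1)

lemma ed_not {H : SimpleGraph V} {s : V → Bool} {W : U → U → ℝ} {u v : V} (h : ¬ H.Adj u v)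
    (a b : U) : ed H s W u v a b = 1 := by
  unfold ed
  rw [if_neg]
  exact fun h' => h h'.1

lemma bw_insert (H : SimpleGraph V) (s : V → Bool) (W : U → U → ℝ) (K B : Finset V)
    (r x : V → U) (w : V) (hwK : w ∉ K) (hwB : w ∉ B) (hd : ∀ v ∈ B, v ∉ K) :
    bw H s W K (insert w B) r x =
      bw H s W K B r x * ∏ u, ∏ v, ex H s W (K ∪ B) w (yy K r x) (x w) u v := by
  unfold bw
  rw [← Finset.prod_mul_distrib]
  refine Finset.prod_congr rfl fun u _ => ?_
  rw [← Finset.prod_mul_distrib]
  refine Finset.prod_congr rfl fun v _ => ?_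
  have hww : ∀ a b : U, ed H s W w w a b = 1 := ed_not (H.loopless.irrefl w)
  unfold ex yy
  by_cases huw : u = w
  · subst huw
    by_cases hvw : v = u
    · subst hvw
      simp [hwK, hwB, hww]
    · by_cases hvK : v ∈ K
      · have hvB : v ∉ B := fun h => hd v h hvK
        simp [hwK, hwB, hvw, hvK, hvB]
      · by_cases hvB : v ∈ B
        · simp [hwK, hwB, hvw, hvK, hvB]
        · simp [hwK, hwB, hvw, hvK, hvB]
  · by_cases hvw : v = w
    · subst hvw
      by_cases huK : u ∈ K
      · have huB : u ∉ B := fun h => hd u h huK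
        simp [hwK, hwB, huw, huK, huB]
      · by_cases huB : u ∈ B
        · simp [hwK, hwB, huw, huK, huB]
        · simp [hwK, hwB, huw, huK, huB]
    · simp [huw, hvw]

lemma ex_prod_none (H : SimpleGraph V) (s : V → Bool) (W : U → U → ℝ) (S : Finset V) (w : V)
    (y : V → U) (a : U) (h : ∀ v ∈ S, ¬ H.Adj w v) : ∏ u, ∏ v, ex H s W S w y a u v = 1 := by
  refine Finset.prod_eq_one fun u _ => Finset.prod_eq_one fun v _ => ?_
  unfold ex
  by_cases hu : u = w
  · rw [if_pos hu]
    by_cases hv : v ∈ S
    · rw [if_pos hv, ed_not (h v hv)]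
    · rw [if_neg hv]
  · rw [if_neg hu]
    by_cases hv : v = w ∧ u ∈ S
    · rw [if_pos hv, ed_not fun h' => h u hv.2 h'.symm]
    · rw [if_neg hv]

/-- the factor of the only neighbour -/
noncomputable def fac (s : V → Bool) (W : U → U → ℝ) (w : V) (a b : U) : ℝ :=
  if s w = false then W a b else W b a

lemma ex_prod_one (H : SimpleGraph V) (s : V → Bool) (W : U → U → ℝ) (S : Finset V) (w v₀ : V)
    (y : V → U) (a : U) (hw : w ∉ S) (hs : ∀ u v, H.Adj u v → s u ≠ s v) (h0 : v₀ ∈ S)
    (hadj : H.Adj w v₀) (h : ∀ v ∈ S, H.Adj w v → v = v₀) :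
    ∏ u, ∏ v, ex H s W S w y a u v = fac s W w a (y v₀) := by
  have hne : v₀ ≠ w := fun h' => hw (h' ▸ h0)
  have hsv := hs _ _ hadj
  by_cases hsw : s w = false
  · have hs0 : s v₀ = true := by
      cases h1 : s v₀ with
      | false => exact absurd (hsw.trans h1.symm) hsv
      | true => rfl
    rw [Finset.prod_eq_single w, Finset.prod_eq_single v₀]
    · unfold ex fac ed
      simp [h0, hadj, hsw, hs0]
    · intro v _ hv
      unfold ex
      rw [if_pos rfl]
      by_cases hvS : v ∈ S
      · rw [if_pos hvS, ed_not fun h' => hv (h v hvS h')]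
      · rw [if_neg hvS]
    · intro h'
      exact absurd (mem_univ _) h'
    · intro u _ hu
      refine Finset.prod_eq_one fun v _ => ?_
      unfold ex
      rw [if_neg hu]
      by_cases hv : v = w ∧ u ∈ S
      · rw [if_pos hv]
        unfold ed
        rw [if_neg]
        intro h'
        rw [hsw] at h'
        exact Bool.false_ne_true h'.2.2
      · rw [if_neg hv]
    · intro h'
      exact absurd (mem_univ _) h'
  · have hsw' : s w = true := by simpa using hsw
    have hs0 : s v₀ = false := by
      cases h1 : s v₀ with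
      | true => exact absurd (hsw'.trans h1.symm) hsv
      | false => rfl
    rw [Finset.prod_eq_single v₀, Finset.prod_eq_single w]
    · unfold ex fac ed
      simp [h0, hadj.symm, hsw', hs0, hne]
    · intro v _ hv
      unfold ex
      rw [if_neg hne, if_neg fun h' => hv h'.1]
    · intro h'
      exact absurd (mem_univ _) h'
    · intro u _ hu
      refine Finset.prod_eq_one fun v _ => ?_
      unfold ex
      by_cases huw : u = w
      · rw [if_pos huw]
        by_cases hvS : v ∈ S
        · rw [if_pos hvS]
          unfold ed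
          rw [if_neg]
          intro h'
          rw [hsw'] at h'
          exact Bool.false_ne_true h'.2.1.symm
        · rw [if_neg hvS]
      · rw [if_neg huw]
        by_cases hv : v = w ∧ u ∈ S
        · rw [if_pos hv, ed_not fun h' => hu (h u hv.2 h'.symm)]
        · rw [if_neg hv]
    · intro h'
      exact absurd (mem_univ _) h'

lemma bw_update (H : SimpleGraph V) (s : V → Bool) (W : U → U → ℝ) (K B : Finset V)
    (r x : V → U) (w : V) (u : U) (hwB : w ∉ B) :
    bw H s W K B r (Function.update x w u) = bw H s W K B r x := by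
  unfold bw
  refine Finset.prod_congr rfl fun a _ => Finset.prod_congr rfl fun b _ => ?_
  have h : ∀ c ∈ B, Function.update x w u c = x c := by
    intro c hc
    have hcw : c ≠ w := by
      intro h'
      rw [h'] at hc
      exact hwB hc
    exact Function.update_of_ne hcw _ _
  congr 1
  · congr 1
    · by_cases hc : a ∈ K ∧ b ∈ B
      · rw [if_pos hc, if_pos hc, h b hc.2]
      · rw [if_neg hc, if_neg hc]
    · by_cases hc : a ∈ B ∧ b ∈ K
      · rw [if_pos hc, if_pos hc, h a hc.1]
      · rw [if_neg hc, if_neg hc]
  · by_cases hc : a ∈ B ∧ b ∈ B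
    · rw [if_pos hc, if_pos hc, h a hc.1, h b hc.2]
    · rw [if_neg hc, if_neg hc]

lemma fac_sum {m : Bool → U → ℝ} {W : U → U → ℝ} (hb : Bir m W) (s : V → Bool) {w v₀ : V}
    (hsv : s w ≠ s v₀) {b : U} (hb0 : m (s v₀) b ≠ 0) : ∑ u, m (s w) u * fac s W w u b = 1 := by
  unfold fac
  by_cases hsw : s w = false
  · have hs0 : s v₀ = true := by
      cases h1 : s v₀ with
      | false => exact absurd (hsw.trans h1.symm) hsv
      | true => rfl
    rw [hs0] at hb0
    simp only [hsw, if_true]
    exact hb.col b hb0
  · have hsw' : s w = true := by simpa using hsw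
    have hs0 : s v₀ = false := by
      cases h1 : s v₀ with
      | true => exact absurd (hsw'.trans h1.symm) hsv
      | false => rfl
    rw [hs0] at hb0
    simp only [hsw', Bool.true_eq_false, if_false]
    exact hb.row b hb0

theorem thin : ThinStmt := by
  intro V U _ _ _ m W H s K B r hb hs hr hthin
  induction hthin with
  | empty =>
    have h : ∀ x : V → U, bw H s W K ∅ r x = 1 := by
      intro x
      unfold bw
      simp
    simp only [h, mul_one]
    exact sum_pm s m hb.m1
  | @insert B w hB hwK hwB hw ih =>
    have hd := thin_disj hB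
    by_cases hn : ∃ v₀ ∈ K ∪ B, H.Adj w v₀
    · obtain ⟨v₀, h0, hadj⟩ := hn
      have hwS : w ∉ K ∪ B := by simp [hwK, hwB]
      have hu : ∀ v ∈ K ∪ B, H.Adj w v → v = v₀ := fun v hv hv' => hw v hv v₀ h0 hv' hadj
      have hfac : ∀ x : V → U, bw H s W K (insert w B) r x =
          bw H s W K B r x * fac s W w (x w) (yy K r x v₀) := by
        intro x
        rw [bw_insert H s W K B r x w hwK hwB hd,
          ex_prod_one H s W (K ∪ B) w v₀ (yy K r x) (x w) hwS hs h0 hadj hu]
      have hv0w : v₀ ≠ w := fun h' => hwS (h' ▸ h0)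
      rw [resample s m w (hb.m1 _), ← ih]
      refine Finset.sum_congr rfl fun x _ => ?_
      by_cases hx : pm s m x = 0
      · rw [hx, zero_mul, zero_mul]
      · congr 1
        have hy : ∀ u, yy K r (Function.update x w u) v₀ = yy K r x v₀ := by
          intro u
          unfold yy
          rw [Function.update_of_ne hv0w]
        have h1 : ∀ u, m (s w) u * bw H s W K (insert w B) r (Function.update x w u) =
            bw H s W K B r x * (m (s w) u * fac s W w u (yy K r x v₀)) := by
          intro u
          rw [hfac, bw_update H s W K B r x w u hwB, hy, Function.update_self]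
          ring
        rw [Finset.sum_congr rfl fun u _ => h1 u, ← Finset.mul_sum, fac_sum hb s (hs _ _ hadj),
          mul_one]
        unfold yy
        by_cases hvK : v₀ ∈ K
        · rw [if_pos hvK]
          exact hr v₀ hvK
        · rw [if_neg hvK]
          unfold pm at hx
          exact fun h' => hx (Finset.prod_eq_zero (mem_univ v₀) h')
    · have hn' : ∀ v ∈ K ∪ B, ¬ H.Adj w v := fun v hv h' => hn ⟨v, hv, h'⟩
      rw [← ih]
      refine Finset.sum_congr rfl fun x _ => ?_
      rw [bw_insert H s W K B r x w hwK hwB hd, ex_prod_none H s W (K ∪ B) w _ _ hn', mul_one]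

end Vale.Agent.P050.H346
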