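import Vale.Agent.P050.H687.Main
import Vale.Agent.P050.Lev.Forest

/-!
# P050: forests, and forests substituted with an arbitrary division (row TREE of H687)
-/

set_option linter.unusedSectionVars false

namespace Vale.Agent.P050.H346

open Finset Vale.Agent.P050.Lev Vale.Agent.P050.Tmpl Vale.Agent.P050.H177 Vale.Agent.P050.H687
  Vale.Agent.P050.H149

lemma prod_sideEdges {V U : Type} [Fintype V] [DecidableEq V] (H : SimpleGraph V) (s : V → Bool)
    (W : U → U → ℝ) (r z : V → U) :
    ∏ e ∈ sideEdges H s, W (z e.1) (z e.2) = bw H s W ∅ univ r z := by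
  unfold sideEdges bw
  rw [Finset.prod_filter, Fintype.prod_prod_type]
  refine Finset.prod_congr rfl fun u _ => Finset.prod_congr rfl fun v _ => ?_
  unfold ed
  by_cases h : H.Adj u v ∧ s u = false ∧ s v = true
  · simp [h]
  · simp [h]

lemma edge_at {V : Type} [Fintype V] [DecidableEq V] {H : SimpleGraph V} {s : V → Bool}
    (hs : ∀ u v, H.Adj u v → s u ≠ s v) (hi : ∀ u, ∃ v, H.Adj u v) (a : V) :
    ∃ e ∈ sideEdges H s, e.1 = a ∨ e.2 = a := by
  obtain ⟨b, hab⟩ := hi a
  have h1 := hs a b hab
  by_cases h : s a = false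
  · refine ⟨(a, b), ?_, Or.inl rfl⟩
    simp only [sideEdges, mem_filter, mem_univ, true_and]
    refine ⟨hab, h, ?_⟩
    rw [h] at h1
    cases h' : s b
    · exact absurd h'.symm h1
    · rfl
  · refine ⟨(b, a), ?_, Or.inr rfl⟩
    simp only [sideEdges, mem_filter, mem_univ, true_and]
    have h2 : s a = true := by simpa using h
    refine ⟨hab.symm, ?_, h2⟩
    rw [h2] at h1
    cases h' : s b
    · rfl
    · exact absurd h'.symm h1

/-- (a) a graph which is thin over the empty set (a forest) is a two-sided Sidorenko graph -/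
theorem forest_gsid {V : Type} [Fintype V] [DecidableEq V] {H : SimpleGraph V} {s : V → Bool}
    (hs : ∀ u v, H.Adj u v → s u ≠ s v) (hT : Thin H ∅ univ) (hi : ∀ u, ∃ v, H.Adj u v) :
    GSid H s := by
  refine ⟨hs, ksid_of_bireg ?_ (edge_at hs hi) ?_⟩
  · intro e he
    simp only [sideEdges, mem_filter, mem_univ, true_and] at he
    exact he.2
  intro U _ m W m0 m1 W0 hrow hcol
  have hU : Nonempty U := by
    by_contra hU
    rw [not_nonempty_iff] at hU
    have := m1 true
    simp at this
  obtain ⟨u₀⟩ := hU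
  have h := thin V U m W H s ∅ univ (fun _ => u₀) ⟨m0, m1, W0, hrow, hcol⟩ hs
    (fun v hv => absurd hv (notMem_empty v)) hT
  refine le_of_eq ?_
  rw [← h]
  exact Finset.sum_congr rfl fun z _ => by rw [prod_sideEdges H s W (fun _ => u₀) z, pm]

/-- (b) each set of vertices of a forest is thin over the empty set -/
theorem thin_of_acyclic {V : Type} [Fintype V] [DecidableEq V] {H : SimpleGraph V}
    (h : H.IsAcyclic) (B : Finset V) : Thin H ∅ B := by
  induction hn : B.card generalizing B with
  | zero =>
    rw [Finset.card_eq_zero.1 hn]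
    exact Thin.empty
  | succ n ih =>
    have hne : B.Nonempty := Finset.card_pos.1 (by omega)
    have : Nonempty {v : V // v ∈ B} := ⟨⟨hne.choose, hne.choose_spec⟩⟩
    obtain ⟨w, hw⟩ := exists_leaf (F := H.comap (Subtype.val : {v : V // v ∈ B} → V))
      (h.comap ⟨Subtype.val, fun h => h⟩ Subtype.val_injective)
    have hc : (B.erase w.1).card = n := by
      rw [Finset.card_erase_of_mem w.2]
      omega
    rw [← Finset.insert_erase w.2]
    refine Thin.insert w.1 (ih _ hc) (notMem_empty _) (Finset.notMem_erase _ _) ?_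
    intro x hx y hy hwx hwy
    rw [Finset.empty_union] at hx hy
    have hxB := Finset.mem_of_mem_erase hx
    have hyB := Finset.mem_of_mem_erase hy
    rcases hw with hw | ⟨u, -, hu⟩
    · exact absurd (show (H.comap (Subtype.val : {v : V // v ∈ B} → V)).Adj w ⟨x, hxB⟩ from hwx)
        (hw _)
    · have h1 := hu ⟨x, hxB⟩ hwx
      have h2 := hu ⟨y, hyB⟩ hwy
      exact congrArg Subtype.val (h1.trans h2.symm)

lemma gsid_empty {V : Type} [Fintype V] [DecidableEq V] [IsEmpty V] (H : SimpleGraph V)
    (s : V → Bool) : GSid H s := by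
  refine ⟨fun u => (IsEmpty.false u).elim, fun e => (IsEmpty.false e.1).elim,
    fun U _ m W _ _ _ => ?_⟩
  have hE : sideEdges H s = ∅ := Finset.eq_empty_of_forall_notMem fun e => (IsEmpty.false e.1).elim
  rw [hE]
  simp

/-- (c) a forest may be substituted with an arbitrary division of its vertices -/
theorem tree_sub {VG V : Type} [Fintype VG] [DecidableEq VG] [Fintype V] [DecidableEq V]
    {G : SimpleGraph VG} {t : VG → Bool} {H : SimpleGraph V} {s : V → Bool} (hG : GSid G t)
    (hGi : ∀ p, ∃ q, G.Adj p q) (hH : H.IsAcyclic) (hs : ∀ u v, H.Adj u v → s u ≠ s v)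
    (hHi : ∀ u, ∃ v, H.Adj u v) (τ : V → Bool) :
    GSid (relSub G t H τ ∅) (subSide s t τ ∅) := by
  rcases isEmpty_or_nonempty VG with he | hne
  · have : IsEmpty (RV t τ (∅ : Finset V)) := ⟨fun a => by
      rcases a with a | a
      · exact notMem_empty _ a.2
      · exact he.false a.1.1⟩
    exact gsid_empty _ _
  · exact main VG V G t H s ∅ τ hne hG (forest_gsid hs (thin_of_acyclic hH univ) hHi) hGi hHi
      Thin.empty (Or.inl fun b => thin_of_acyclic hH _)

end Vale.Agent.P050.H346
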